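import Vale.Agent.P196.Full.Tiles.Minimal.Up

/-!
# P196: what the children of a tile depend on

A child outside the central block depends on the geometry of its parent and on one signal; a bit
of an edge which is not a minterm depends on one signal.
-/

namespace Vale.Agent.P196.Full.Tiles.Minimal

attribute [local irreducible] K M0 lvl geoH geoV

set_option linter.unusedSimpArgs false

theorem cPos_rng (t : DI) (k : Fin 2) : 4 ≤ cPos t k ∧ cPos t k < 4 + 2 * nC := by
  have := (cIdx t).isLt
  unfold cPos; omega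

theorem sRow_rng (q : Sg) : 4 + 2 * nC ≤ sRow q ∧ sRow q < 4 + 2 * nC + nS := by
  have := (sIdx q).isLt
  unfold sRow; omega

theorem K_tab : 16 * nC + 16 * nS + 100 ≤ K ∧ 4 * 2 ^ nS + 16 * nS + 100 ≤ K := by
  unfold K
  generalize 2 ^ nS = a
  omega

theorem sCol_rng (q : Sg) (h k : Fin 2) :
    4 + 2 * nC ≤ sCol q h k ∧ sCol q h k < mBase ∧ sCol q h k ≠ K := by
  have := K_tab
  have := (sIdx q).isLt
  unfold sCol mBase
  split <;> omega

theorem sCol_cancel {q q' : Sg} {h h' k k' : Fin 2} (e : sCol q h k = sCol q' h' k') : q = q' := by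
  apply sIdx.injective
  have := K_tab
  have := (sIdx q).isLt
  have := (sIdx q').isLt
  apply Fin.ext
  unfold sCol at e
  split_ifs at e <;> omega

theorem cPos_cancel {t t' : DI} {k k' : Fin 2} (h : cPos t k = cPos t' k') : t = t' := by
  apply cIdx.injective
  apply Fin.ext
  unfold cPos at h; omega

theorem sRow_cancel {q q' : Sg} (h : sRow q = sRow q') : q = q' := by
  apply sIdx.injective
  apply Fin.ext
  unfold sRow at h; omega

theorem mBase_rng : mBase + 2 ^ nS < 2 * K ∧ 4 + 2 * nC + nS < mBase := by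
  have := K_tab
  unfold mBase; omega

/-- Two tiles with the same geometric colours. -/
def SameG (P Q : Tile) : Prop := ∀ s, P.gs s = Q.gs s

theorem SameG.lrdu {P Q : Tile} (h : SameG P Q) :
    P.l.g = Q.l.g ∧ P.r.g = Q.r.g ∧ P.d.g = Q.d.g ∧ P.u.g = Q.u.g :=
  ⟨h 0, h 1, h 2, h 3⟩

theorem SameG.tagCell {P Q : Tile} (h : SameG P Q) : P.tagCell = Q.tagCell := by
  unfold Tile.tagCell; rw [h.lrdu.1]

/-- The signals which only see the geometry. -/
theorem SameG.sig_eq {P Q : Tile} (h : SameG P Q) (f : (Sg → Bool) → Bool) (M : ℕ) {q : Sg}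
    (hq : ∀ s t k, q ≠ Sg.side s t k) : sig f M P q = sig f M Q q := by
  have hgs : P.gs = Q.gs := funext h
  rcases q with ⟨s, t, k⟩ | i | ⟨c, p, i⟩ | i
  · exact absurd rfl (hq s t k)
  · simp [sig, hgs]
  · simp [sig, hgs]
  · simp [sig, h.tagCell]

theorem shown_eq {f : (Sg → Bool) → Bool} {M : ℕ} {P Q : Tile} {s : Fin 4} {b : ℕ}
    (h : ∀ t k, b = cPos t k → sig f M P (.side s t 0) = sig f M Q (.side s t 0)) :
    shown P s b = shown Q s b := by
  unfold shown
  rw [Bool.eq_iff_iff]
  simp only [decide_eq_true_eq]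
  constructor <;> rintro ⟨t, k, hb, hbit⟩ <;> refine ⟨t, k, hb, ?_⟩ <;>
    have := h t k hb <;> simp only [sig] at this <;> simp_all

/-- The position of a child in the central block. -/
def InBlk (M i j : ℕ) : Prop := M ≤ i + K ∧ i < M + K ∧ M ≤ j + K ∧ j < M + K

theorem tagCell_child (f : (Sg → Bool) → Bool) (T : Tile) {M i j : ℕ} (hM : K < M)
    (hi : i < 2 * M) (hj : j < 2 * M) :
    (InBlk M i j → (child f M T i j).tagCell = some (i + K - M, j + K - M)) ∧
      (¬InBlk M i j → (child f M T i j).tagCell = none) := by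
  have := K_tab
  unfold InBlk
  constructor
  · rintro ⟨h1, h2, h3, h4⟩
    have e : geoH M i j = .tag (i + K - M) (j + K - M) := by
      unfold geoH
      rw [if_neg (by omega), if_pos (by omega)]
    simp only [Tile.tagCell, child, e]
    rw [if_pos (by omega)]
  · intro h
    simp only [Tile.tagCell, child]
    split
    · next a b heq =>
      rw [if_neg]
      rintro ⟨h5, h6⟩
      unfold geoH at heq
      split_ifs at heq with g1 g2
      rw [GCol.tag.injEq] at heq
      exact h (by omega)
    · rfl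

/-- What an outside child sees of the tags of its parent. -/
def TagAgree (M i j : ℕ) (P Q : Tile) : Prop :=
  ∀ x, (M ≤ j + K ∧ j < M + K ∧ x = j + K - M ∨ M ≤ i + K ∧ i < M + K ∧ x = i + K - M) →
    ∀ s, ((P.gs s).tagA = some x ↔ (Q.gs s).tagA = some x) ∧
      ((P.gs s).tagB = some x ↔ (Q.gs s).tagB = some x)

/-- An outside child depends on the values, on the tags at one index and on one signal. -/
theorem outside_dep (f : (Sg → Bool) → Bool) {M i j : ℕ} (hM : 4 * K ≤ M) (hi : i < 2 * M)
    (hj : j < 2 * M) (hout : ¬InBlk M i j) :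
    ∃ q₀ : Sg,
      (∀ s t k, q₀ = .side s t k → 2 ≤ (s : ℕ) →
        M ≤ i + K ∧ i < M + K ∧ ¬(M ≤ j + K ∧ j < M + K) ∧
          ((∃ t k, i + K - M = cPos t k) ∨ ∃ q h k, i + K - M = sCol q h k)) ∧
      ∀ P Q : Tile, (∀ s, (P.gs s).val = (Q.gs s).val) → TagAgree M i j P Q →
        sig f M P q₀ = sig f M Q q₀ → child f M P i j = child f M Q i j := by
  classical
  have hK := K_tab
  unfold InBlk at hout
  let q₀ : Sg :=
    if hr : M ≤ j + K ∧ j < M + K ∧ ∃ t k, j + K - M = cPos t k then
      .side (if i < M then 0 else 1) hr.2.2.choose 0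
    else if hc : M ≤ i + K ∧ i < M + K ∧ ∃ t k, i + K - M = cPos t k then
      .side (if j < M then 2 else 3) hc.2.2.choose 0
    else if hb : M ≤ i + K ∧ i < M + K ∧ ∃ q h k, i + K - M = sCol q h k then hb.2.2.choose
    else .op 0
  refine ⟨q₀, fun s t k hq hs => ?_, fun P Q hv ht hs => ?_⟩
  · simp only [q₀] at hq
    by_cases h1 : M ≤ j + K ∧ j < M + K ∧ ∃ t k, j + K - M = cPos t k
    · rw [dif_pos h1, Sg.side.injEq] at hq
      rw [← hq.1] at hs
      split at hs <;> simp at hs
    rw [dif_neg h1] at hq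
    by_cases h2 : M ≤ i + K ∧ i < M + K ∧ ∃ t k, i + K - M = cPos t k
    · exact ⟨h2.1, h2.2.1, fun h => hout ⟨h2.1, h2.2.1, h.1, h.2⟩, Or.inl h2.2.2⟩
    rw [dif_neg h2] at hq
    by_cases h3 : M ≤ i + K ∧ i < M + K ∧ ∃ q h k, i + K - M = sCol q h k
    · exact ⟨h3.1, h3.2.1, fun h => hout ⟨h3.1, h3.2.1, h.1, h.2⟩, Or.inr h3.2.2⟩
    rw [dif_neg h3] at hq
    exact absurd hq (by simp)
  -- the row signal
  have hrow : ∀ s : Fin 4, s = (if i < M then 0 else 1) → M ≤ j + K → j < M + K →
      shown P s (j + K - M) = shown Q s (j + K - M) := by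
    intro s hs' h1 h2
    refine shown_eq (f := f) (M := M) fun t k htk => ?_
    have hr : M ≤ j + K ∧ j < M + K ∧ ∃ t k, j + K - M = cPos t k := ⟨h1, h2, t, k, htk⟩
    simp only [q₀, dif_pos hr] at hs
    obtain ⟨k', hk'⟩ := hr.2.2.choose_spec
    rwa [hs', cPos_cancel (htk.symm.trans hk')]
  -- the column signal
  have hcol : ∀ s : Fin 4, s = (if j < M then 2 else 3) → M ≤ i + K → i < M + K →
      shown P s (i + K - M) = shown Q s (i + K - M) := by
    intro s hs' h1 h2
    refine shown_eq (f := f) (M := M) fun t k htk => ?_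
    have hr : ¬(M ≤ j + K ∧ j < M + K ∧ ∃ t k, j + K - M = cPos t k) :=
      fun h => hout ⟨h1, h2, h.1, h.2.1⟩
    have hc : M ≤ i + K ∧ i < M + K ∧ ∃ t k, i + K - M = cPos t k := ⟨h1, h2, t, k, htk⟩
    simp only [q₀, dif_neg hr, dif_pos hc] at hs
    obtain ⟨k', hk'⟩ := hc.2.2.choose_spec
    rwa [hs', cPos_cancel (htk.symm.trans hk')]
  have hbus : ∀ q h k, M ≤ i + K → i < M + K → i + K - M = sCol q h k →
      sig f M P q = sig f M Q q := by
    intro q h k h1 h2 hq
    have hr : ¬(M ≤ j + K ∧ j < M + K ∧ ∃ t k, j + K - M = cPos t k) :=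
      fun h => hout ⟨h1, h2, h.1, h.2.1⟩
    have hc : ¬(M ≤ i + K ∧ i < M + K ∧ ∃ t k, i + K - M = cPos t k) := by
      rintro ⟨-, -, t, k', htk⟩
      have := (cPos_rng t k').2
      have := (sCol_rng q h k).1
      omega
    have hb : M ≤ i + K ∧ i < M + K ∧ ∃ q h k, i + K - M = sCol q h k := ⟨h1, h2, q, h, k, hq⟩
    simp only [q₀, dif_neg hr, dif_neg hc, dif_pos hb] at hs
    obtain ⟨h', k', hk'⟩ := hb.2.2.choose_spec
    rwa [sCol_cancel (hq.symm.trans hk')]
  have hvl : P.l.g.val = Q.l.g.val := hv 0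
  have hvr : P.r.g.val = Q.r.g.val := hv 1
  have hvd : P.d.g.val = Q.d.g.val := hv 2
  have hvu : P.u.g.val = Q.u.g.val := hv 3
  have hscan : ∀ x k, scanBit (fun s => (P.gs s).val) (M - K) x k =
      scanBit (fun s => (Q.gs s).val) (M - K) x k := by
    intro x k; rw [funext hv]
  -- horizontal edges
  have hH : ∀ x, (x = i ∨ x = i + 1) → fillH f M P x j = fillH f M Q x j := by
    intro x hx
    funext h
    have hni : ¬(M ≤ j + K ∧ j < M + K ∧ M < x + K ∧ x < M + K) := by
      rintro ⟨g1, g2, g3, g4⟩; exact hout ⟨by omega, by omega, g1, g2⟩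
    by_cases hb : M ≤ j + K ∧ j < M + K
    · have hside : decide (x + 1 ≤ M + K) = decide (i < M) := by
        have : i + K < M ∨ M + K ≤ i := by
          by_contra hc; exact hout ⟨by omega, by omega, hb.1, hb.2⟩
        rw [Bool.eq_iff_iff]; simp only [decide_eq_true_eq]; omega
      have hinner : ¬(M < x + K ∧ x < M + K) := fun g => hni ⟨hb.1, hb.2, g⟩
      have t0 := ht (j + K - M) (Or.inl ⟨hb.1, hb.2, rfl⟩) 0
      have t1 := ht (j + K - M) (Or.inl ⟨hb.1, hb.2, rfl⟩) 1
      have tl : (P.l.g.tagA = some (j + K - M) ↔ Q.l.g.tagA = some (j + K - M)) ∧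
        (P.l.g.tagB = some (j + K - M) ↔ Q.l.g.tagB = some (j + K - M)) := t0
      have tr : (P.r.g.tagA = some (j + K - M) ↔ Q.r.g.tagA = some (j + K - M)) ∧
        (P.r.g.tagB = some (j + K - M) ↔ Q.r.g.tagB = some (j + K - M)) := t1
      unfold fillH
      simp only [hside, hinner, decide_false, Bool.and_false, Bool.false_and]
      by_cases hiM : i < M
      · have e := hrow 0 (by simp [hiM]) hb.1 hb.2
        cases h <;> simp [hiM, e, hvl, hvr, hvd, hvu, tl.1, tl.2]
      · have e := hrow 1 (by simp [hiM]) hb.1 hb.2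
        cases h <;> simp [hiM, e, hvl, hvr, hvd, hvu, tr.1, tr.2]
    · unfold fillH
      cases h <;> simp [hb, hvl, hvr, hvd, hvu]
  -- vertical edges
  have hV : ∀ y, (y = j ∨ y = j + 1) → fillV f M P i y = fillV f M Q i y := by
    intro y hy
    funext h
    by_cases hb : M ≤ i + K ∧ i < M + K
    · have hjo : j + K < M ∨ M + K ≤ j := by
        by_contra hc; exact hout ⟨hb.1, hb.2, by omega, by omega⟩
      have hinner : ¬(M < y + K ∧ y < M + K) := by omega
      have hside : decide (y + 1 ≤ M + K) = decide (j < M) := by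
        rw [Bool.eq_iff_iff]; simp only [decide_eq_true_eq]; omega
      have t2 := ht (i + K - M) (Or.inr ⟨hb.1, hb.2, rfl⟩) 2
      have t3 := ht (i + K - M) (Or.inr ⟨hb.1, hb.2, rfl⟩) 3
      have td : (P.d.g.tagA = some (i + K - M) ↔ Q.d.g.tagA = some (i + K - M)) ∧
        (P.d.g.tagB = some (i + K - M) ↔ Q.d.g.tagB = some (i + K - M)) := t2
      have tu : (P.u.g.tagA = some (i + K - M) ↔ Q.u.g.tagA = some (i + K - M)) ∧
        (P.u.g.tagB = some (i + K - M) ↔ Q.u.g.tagB = some (i + K - M)) := t3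
      have ebus : (∃ q h' k, i + K - M = sCol q h' k ∧ sig f M P q = true) ↔
          ∃ q h' k, i + K - M = sCol q h' k ∧ sig f M Q q = true := by
        constructor <;> rintro ⟨q, h', k, e, hq⟩ <;> refine ⟨q, h', k, e, ?_⟩ <;>
          simp_all [hbus q h' k hb.1 hb.2 e]
      unfold fillV
      simp only [hside, hinner, decide_false, Bool.and_false, Bool.false_and, hscan, ebus]
      by_cases hjM : j < M
      · have e := hcol 2 (by simp [hjM]) hb.1 hb.2
        cases h <;> simp [hjM, e, hvl, hvr, hvd, hvu, td.1, td.2]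
      · have e := hcol 3 (by simp [hjM]) hb.1 hb.2
        cases h <;> simp [hjM, e, hvl, hvr, hvd, hvu, tu.1, tu.2]
    · unfold fillV
      cases h <;> simp [hb, hvl, hvr, hvd, hvu, hscan]
  simp only [child]
  rw [hH i (Or.inl rfl), hH (i + 1) (Or.inr rfl), hV j (Or.inl rfl), hV (j + 1) (Or.inr rfl)]

/-- The horizontal layers which do not only see the geometry of the parent. -/
def SigH (h : HL) : Prop := h = .C ∨ h = .P

/-- The vertical layers which see one signal of the parent. -/
def SigV (h : VL) : Prop := h = .C ∨ h = .CT ∨ h = .Bus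

theorem fillH_geo (f : (Sg → Bool) → Bool) (M i j : ℕ) {h : HL} (hh : ¬SigH h) {P Q : Tile}
    (hg : SameG P Q) : fillH f M P i j h = fillH f M Q i j h := by
  obtain ⟨g1, g2, g3, g4⟩ := hg.lrdu
  unfold fillH
  unfold SigH at hh
  rw [hg.tagCell]
  cases h <;> simp [g1, g2, g3, g4] at hh ⊢

theorem fillV_geo (f : (Sg → Bool) → Bool) (M i j : ℕ) {h : VL} (hh : ¬SigV h) (hne : h ≠ .Qm)
    {P Q : Tile} (hg : SameG P Q) : fillV f M P i j h = fillV f M Q i j h := by
  obtain ⟨g1, g2, g3, g4⟩ := hg.lrdu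
  have hgs : P.gs = Q.gs := funext hg
  have hop : ∀ k, sig f M P (.op k) = sig f M Q (.op k) := fun k =>
    hg.sig_eq f M (by intro s t k'; simp)
  unfold fillV
  unfold SigV at hh
  rw [hg.tagCell]
  cases h <;> simp [g1, g2, g3, g4, hgs, hop] at hh hne ⊢

/-- The other bits of a horizontal edge depend on one signal. -/
theorem fillH_sig (f : (Sg → Bool) → Bool) (M i j : ℕ) {h : HL} (hh : SigH h) :
    ∃ q : Sg, ∀ P Q : Tile, sig f M P q = sig f M Q q →
      fillH f M P i j h = fillH f M Q i j h := by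
  classical
  by_cases hP : h = .P
  · subst hP
    let q : Sg := if hb : ∃ t k, j + K - M = cPos t k then .side 1 hb.choose 0
      else if hs : ∃ q, j + K - M = sRow q then hs.choose else .op 0
    refine ⟨q, fun P Q hq => ?_⟩
    have e1 : shown P 1 (j + K - M) = shown Q 1 (j + K - M) := by
      refine shown_eq (f := f) (M := M) fun t k htk => ?_
      have hb : ∃ t k, j + K - M = cPos t k := ⟨t, k, htk⟩
      simp only [q, dif_pos hb] at hq
      obtain ⟨k', hk'⟩ := hb.choose_spec
      rwa [cPos_cancel (htk.symm.trans hk')]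
    have e2 : (∃ q, j + K - M = sRow q ∧ sig f M P q = true) ↔
        ∃ q, j + K - M = sRow q ∧ sig f M Q q = true := by
      have key : ∀ q', j + K - M = sRow q' → sig f M P q' = sig f M Q q' := by
        intro q' e
        have hb : ¬∃ t k, j + K - M = cPos t k := by
          rintro ⟨t, k, h'⟩
          have := (cPos_rng t k).2
          have := (sRow_rng q').1
          omega
        have hs : ∃ q, j + K - M = sRow q := ⟨q', e⟩
        simp only [q, dif_neg hb, dif_pos hs] at hq
        rwa [sRow_cancel (e.symm.trans hs.choose_spec)]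
      exact exists_congr fun q' => and_congr_right fun e => by rw [key q' e]
    unfold fillH
    simp only [e1, e2]
  by_cases hC : h = .C
  · subst hC
    let s : Fin 4 := if i + 1 ≤ M + K then 0 else 1
    let q : Sg := if hb : ∃ t k, j + K - M = cPos t k then .side s hb.choose 0 else .op 0
    refine ⟨q, fun P Q hq => ?_⟩
    have e : shown P s (j + K - M) = shown Q s (j + K - M) := by
      refine shown_eq (f := f) (M := M) fun t k htk => ?_
      have hb : ∃ t k, j + K - M = cPos t k := ⟨t, k, htk⟩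
      simp only [q, dif_pos hb] at hq
      obtain ⟨k', hk'⟩ := hb.choose_spec
      rwa [cPos_cancel (htk.symm.trans hk')]
    unfold fillH
    by_cases hl : i + 1 ≤ M + K <;> simp [s, hl] at e ⊢ <;> simp [e]
  exact absurd hh (by simp [SigH, hP, hC])

/-- The other bits of a vertical edge except minterms depend on one signal. -/
theorem fillV_sig (f : (Sg → Bool) → Bool) (M i j : ℕ) {h : VL} (hh : SigV h) :
    ∃ q : Sg, ∀ P Q : Tile, sig f M P q = sig f M Q q →
      fillV f M P i j h = fillV f M Q i j h := by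
  classical
  by_cases hB : h = .Bus
  · subst hB
    let q : Sg := if hb : ∃ q h k, i + K - M = sCol q h k then hb.choose else .op 0
    refine ⟨q, fun P Q hq => ?_⟩
    have e : (∃ q h' k, i + K - M = sCol q h' k ∧ sig f M P q = true) ↔
        ∃ q h' k, i + K - M = sCol q h' k ∧ sig f M Q q = true := by
      refine exists_congr fun q' => exists_congr fun h' => exists_congr fun k =>
        and_congr_right fun e => ?_
      have hb : ∃ q h k, i + K - M = sCol q h k := ⟨q', h', k, e⟩
      simp only [q, dif_pos hb] at hq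
      obtain ⟨h'', k', hk'⟩ := hb.choose_spec
      rw [sCol_cancel (e.symm.trans hk'), hq]
    unfold fillV
    simp only [e]
  by_cases hC : h = .C ∨ h = .CT
  · let s : Fin 4 := if h = .C ∧ j + 1 ≤ M + K then 2 else 3
    let q : Sg := if hb : ∃ t k, i + K - M = cPos t k then .side s hb.choose 0 else .op 0
    refine ⟨q, fun P Q hq => ?_⟩
    have e : shown P s (i + K - M) = shown Q s (i + K - M) := by
      refine shown_eq (f := f) (M := M) fun t k htk => ?_
      have hb : ∃ t k, i + K - M = cPos t k := ⟨t, k, htk⟩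
      simp only [q, dif_pos hb] at hq
      obtain ⟨k', hk'⟩ := hb.choose_spec
      rwa [cPos_cancel (htk.symm.trans hk')]
    unfold fillV
    rcases hC with rfl | rfl
    · by_cases hl : j + 1 ≤ M + K <;> simp [s, hl] at e ⊢ <;> simp [e]
    · simp [s] at e ⊢
      simp [e]
  rcases hh with rfl | rfl | rfl <;> simp at hB hC

end Vale.Agent.P196.Full.Tiles.Minimal
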