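import Vale.Agent.P196.Full.Tiles.Minimal.Inner

/-!
# P196: in a hierarchy every tile is generated

Outside children are generated by `generated_outside`. A tile which is not generated would have
only block cells as ancestors; two of them agree, and the descent between them, repeated down to
level zero, gives a generated tile which can be lifted back.
-/

namespace Vale.Agent.P196.Full.Tiles.Minimal

attribute [local irreducible] K M0 lvl geoH geoV sig fillH fillV

theorem hier_hasGeom (H : Hierarchy) (s : ℕ) (z : ℤ × ℤ) : HasGeom s (H.x s z) := by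
  cases s with
  | zero => exact hasGeom_of_generated (show Generated forb 0 (H.x 0 z) from H.ok 0 z)
  | succ s => exact (show Valid s (H.x (s + 1) z) from H.ok (s + 1) z).1

theorem hier_parent (H : Hierarchy) (s : ℕ) (z : ℤ × ℤ) : ∃ (w : ℤ × ℤ) (i j : ℕ),
    i < 2 * lvl s ∧ j < 2 * lvl s ∧ H.x s z = child forb (lvl s) (H.x (s + 1) w) i j := by
  have := K_tab
  have := lvl_large s
  obtain ⟨N, hN⟩ : ∃ N : ℤ, 2 * (lvl s : ℤ) = N := ⟨_, rfl⟩
  have hpos : 0 < N := by omega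
  have a0 := Int.emod_nonneg (z.1 - (H.o s).1) hpos.ne'
  have a1 := Int.emod_lt_of_pos (z.1 - (H.o s).1) hpos
  have b0 := Int.emod_nonneg (z.2 - (H.o s).2) hpos.ne'
  have b1 := Int.emod_lt_of_pos (z.2 - (H.o s).2) hpos
  have ea := Int.emod_add_mul_ediv (z.1 - (H.o s).1) N
  have eb := Int.emod_add_mul_ediv (z.2 - (H.o s).2) N
  refine ⟨((z.1 - (H.o s).1) / N, (z.2 - (H.o s).2) / N), ((z.1 - (H.o s).1) % N).toNat,
    ((z.2 - (H.o s).2) % N).toNat, by omega, by omega, ?_⟩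
  rw [← H.dec s _ _ _ (by omega) (by omega)]
  congr 1
  simp only [hN]
  rw [Int.toNat_of_nonneg a0, Int.toNat_of_nonneg b0]
  exact Prod.ext (by simp only; omega) (by simp only; omega)

/-- A tile of a hierarchy which is not generated is a block cell with such a parent. -/
theorem bad_step (H : Hierarchy) {s : ℕ} {z : ℤ × ℤ} (hb : ¬Generated forb s (H.x s z)) :
    ∃ (w : ℤ × ℤ) (i j : ℕ), ¬Generated forb (s + 1) (H.x (s + 1) w) ∧
      InBlk (lvl s) i j ∧ H.x s z = child forb (lvl s) (H.x (s + 1) w) i j := by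
  obtain ⟨w, i, j, hi, hj, e⟩ := hier_parent H s z
  refine ⟨w, i, j, fun h => hb (e ▸ Generated.step s _ i j h hi hj), ?_, e⟩
  by_contra hout
  obtain ⟨v, r₁, r₂, hr₁, hr₂, e1⟩ := hier_parent H (s + 1) w
  obtain ⟨u, p, q, hp, hq, e2⟩ := hier_parent H (s + 2) v
  rw [e, e1] at hb
  refine hb (generated_outside (k := s) (hier_hasGeom H (s + 2) v) hr₁ hr₂ (fun sg => ?_) hi hj hout)
  rw [e2]
  exact exists_signal (k := s + 1) (hier_hasGeom H (s + 3) u) hp hq sg

/-- The code of a block cell. -/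
def blockTile (p : Fin (2 * K) × Fin (2 * K) × (HL → Bool) × (HL → Bool) × (VL → Bool) ×
    (VL → Bool)) : Tile where
  l := ⟨.tag p.1 p.2.1, p.2.2.1⟩
  r := ⟨.tag (p.1 + 1) p.2.1, p.2.2.2.1⟩
  d := ⟨.tag p.1 p.2.1, p.2.2.2.2.1⟩
  u := ⟨.tag p.1 (p.2.1 + 1), p.2.2.2.2.2⟩

theorem exists_blockTile {M i j : ℕ} (V : Tile) (hM : 4 * K ≤ M) (h : InBlk M i j) :
    ∃ p, child forb M V i j = blockTile p := by
  obtain ⟨g0, g1, g2, g3⟩ := gs_blk forb V hM h
  obtain ⟨h1, h2, h3, h4⟩ := h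
  obtain ⟨T, hT⟩ : ∃ T, child forb M V i j = T := ⟨_, rfl⟩
  rw [hT] at g0 g1 g2 g3 ⊢
  refine ⟨(⟨i + K - M, by omega⟩, ⟨j + K - M, by omega⟩, T.l.bit, T.r.bit, T.d.bit, T.u.bit), ?_⟩
  obtain ⟨⟨gl, bl⟩, ⟨gr, br⟩, ⟨gd, bd⟩, ⟨gu, bu⟩⟩ := T
  have e0 : gl = .tag (i + K - M) (j + K - M) := g0
  have e1 : gr = .tag (i + K - M + 1) (j + K - M) := g1
  have e2 : gd = .tag (i + K - M) (j + K - M) := g2
  have e3 : gu = .tag (i + K - M) (j + K - M + 1) := g3
  simp only [blockTile, e0, e1, e2, e3]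

theorem noVal_blk {M i j : ℕ} (V : Tile) (hM : 4 * K ≤ M) (h : InBlk M i j) :
    NoVal (child forb M V i j) ∧ (child forb M V i j).tagCell ≠ none := by
  refine ⟨val_blk forb V hM h, ?_⟩
  have := K_tab
  obtain ⟨h1, h2, h3, h4⟩ := h
  rw [(tagCell_child forb V (by omega) (by omega) (by omega)).1 ⟨h1, h2, h3, h4⟩]
  simp

/-- Tiles of a hierarchy are generated. -/
theorem generated_hier (H : Hierarchy) (s₀ : ℕ) (z₀ : ℤ × ℤ) :
    Generated forb s₀ (H.x s₀ z₀) := by
  by_contra hbad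
  have hK := K_tab
  -- the chain of bad ancestors
  choose nz ni nj hnb hnblk hne using @bad_step H
  let f : ∀ m : ℕ, {z // ¬Generated forb (s₀ + m) (H.x (s₀ + m) z)} := fun m =>
    Nat.rec ⟨z₀, hbad⟩ (fun k p => ⟨nz p.2, hnb p.2⟩) m
  obtain ⟨T, hT⟩ : ∃ T : ℕ → Tile, ∀ m, H.x (s₀ + m) (f m).1 = T m := ⟨_, fun _ => rfl⟩
  have hTb : ∀ m, ¬Generated forb (s₀ + m) (T m) := fun m => hT m ▸ (f m).2
  have hchain : ∀ m, ∃ i j, InBlk (lvl (s₀ + m)) i j ∧
      T m = child forb (lvl (s₀ + m)) (T (m + 1)) i j := fun m =>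
    ⟨_, _, hnblk (f m).2, by rw [← hT m, ← hT (m + 1)]; exact hne (f m).2⟩
  have hblock : ∀ m, NoVal (T m) ∧ (T m).tagCell ≠ none ∧ ∃ p, T m = blockTile p := fun m => by
    obtain ⟨i, j, hb, e⟩ := hchain m
    rw [e]
    exact ⟨(noVal_blk _ (lvl_large _) hb).1, (noVal_blk _ (lvl_large _) hb).2,
      exists_blockTile _ (lvl_large _) hb⟩
  choose code hcode using fun m => (hblock m).2.2
  -- two equal ancestors far apart
  obtain ⟨p, hp⟩ := Finite.exists_infinite_fiber code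
  rw [Set.infinite_coe_iff] at hp
  obtain ⟨a, ha⟩ := hp.nonempty
  obtain ⟨b, hb, hab⟩ := hp.exists_gt (a + s₀)
  obtain ⟨D, rfl⟩ : ∃ D, b = a + s₀ + D := ⟨b - (a + s₀), by omega⟩
  have heq : T a = T (a + s₀ + D) := by
    rw [hcode, hcode, show code a = p from ha, show code (a + s₀ + D) = p from hb]
  -- replay the descent
  have hreplay : ∀ p' q : ℕ, p' + q = s₀ + a → ∃ z, H.x p' z = T (p' + D) := by
    intro p' q
    induction q generalizing p' with
    | zero =>
      intro h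
      obtain rfl : p' = s₀ + a := by omega
      exact ⟨(f a).1, by rw [hT, heq]; congr 1; omega⟩
    | succ q ih =>
      intro h
      obtain ⟨z, hz⟩ := ih (p' + 1) (by omega)
      obtain ⟨i, j, hb', e⟩ := hchain (p' + D)
      have hlv : lvl (s₀ + (p' + D)) = lvl p' + (s₀ + D) := by unfold lvl; omega
      have hblk : InBlk (lvl p') (i - (s₀ + D)) (j - (s₀ + D)) := by
        have := lvl_large p'
        obtain ⟨h1, h2, h3, h4⟩ := hb'
        exact ⟨by omega, by omega, by omega, by omega⟩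
      have hsh := child_shift (d := s₀ + D) (hblock (p' + D + 1)).1 hblk
      have hi : i - (s₀ + D) + (s₀ + D) = i ∧ j - (s₀ + D) + (s₀ + D) = j := by
        have := lvl_large p'
        obtain ⟨h1, h2, h3, h4⟩ := hb'
        omega
      rw [hi.1, hi.2, show p' + (s₀ + D) = s₀ + (p' + D) by omega] at hsh
      refine ⟨((H.o p').1 + 2 * (lvl p' : ℤ) * z.1 + (i - (s₀ + D) : ℕ),
        (H.o p').2 + 2 * (lvl p' : ℤ) * z.2 + (j - (s₀ + D) : ℕ)), ?_⟩
      have hlt : i - (s₀ + D) < 2 * lvl p' ∧ j - (s₀ + D) < 2 * lvl p' := by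
        have := lvl_large p'
        obtain ⟨h1, h2, h3, h4⟩ := hblk
        omega
      rw [H.dec p' z _ _ hlt.1 hlt.2, hz, e, show p' + 1 + D = p' + D + 1 by omega, hsh.2]
  obtain ⟨z, hz⟩ := hreplay 0 (s₀ + a) (by omega)
  rw [Nat.zero_add] at hz
  have h0 : Generated forb 0 (T D) := hz ▸ (show Generated forb 0 (H.x 0 z) from H.ok 0 z)
  have h1 := generated_add h0 (hblock D).2.1 (s₀ + D)
  rw [Nat.zero_add] at h1
  exact hTb D h1

end Vale.Agent.P196.Full.Tiles.Minimal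

namespace Vale.Agent.P196.Full.Tiles

/-- In a hierarchy every tile is generated. -/
theorem generatedGoal : GeneratedGoal := Minimal.generated_hier

end Vale.Agent.P196.Full.Tiles
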