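import Vale.Agent.P196.Full.Tiles.Minimal.Outside

/-!
# P196: tiles of the central block do not depend on the level

A child in the central block of a block cell is the same on every level, and a generated block
cell is generated one level higher.
-/

namespace Vale.Agent.P196.Full.Tiles.Minimal

attribute [local irreducible] K M0 lvl geoH geoV sig fillH fillV

/-- A tile without values. -/
def NoVal (T : Tile) : Prop := ∀ s, (T.gs s).val = none

theorem NoVal.vals {T : Tile} (h : NoVal T) (c : ℕ) : Vals c T := fun s w hw => by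
  rw [h s] at hw; cases hw

theorem del_of_noVal {T : Tile} (h : NoVal T) (c : ℕ) : T.del c = T := by
  have key : ∀ g : GCol, g.val = none → g.del c = g := by
    intro g hg
    cases g with
    | side z hi v => exact absurd hg (by simp [GCol.val])
    | _ => rfl
  obtain ⟨⟨gl, bl⟩, ⟨gr, br⟩, ⟨gd, bd⟩, ⟨gu, bu⟩⟩ := T
  have e1 : gl.val = none := h 0
  have e2 : gr.val = none := h 1
  have e3 : gd.val = none := h 2
  have e4 : gu.val = none := h 3
  simp only [Tile.del, key gl e1, key gr e2, key gd e3, key gu e4]

/-- A child in the block is unchanged when a ring is inserted in the parent. -/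
theorem child_lift {M c i j : ℕ} {U U' : Tile} (hd : U'.del c = U) (hv : Vals c U') (hc : 6 ≤ c)
    (hcM : c + K + 6 ≤ M + 1) (hM : 4 * K ≤ M) (h : InBlk M i j) :
    child forb (M + 1) U' (i + 1) (j + 1) = child forb M U i j := by
  have := K_tab
  obtain ⟨A, hA⟩ : ∃ A, A + K + c = M + 1 := ⟨M + 1 - K - c, by omega⟩
  have hblk : InBlk (M + 1) (i + 1) (j + 1) := by
    obtain ⟨h1, h2, h3, h4⟩ := h; exact ⟨by omega, by omega, by omega, by omega⟩
  have hn : NoVal (child forb (M + 1) U' (i + 1) (j + 1)) := val_blk forb U' (by omega) hblk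
  obtain ⟨h1, h2, h3, h4⟩ := h
  have hs : ∀ x, M ≤ x + K → x < M + K → shr A (M + 1) (x + 1) = x := fun x g1 g2 => by
    unfold shr; split_ifs <;> omega
  have e := child_del forb (M := M + 1) (i := i + 1) (j := j + 1) hA (by omega) hc hv (by omega)
    (by omega) (Or.inr (by omega)) (Or.inr (by omega)) (Or.inr (by omega)) (Or.inr (by omega))
  rw [del_of_noVal hn, hs i h1 h2, hs j h3 h4, Nat.add_sub_cancel, hd] at e
  exact e.symm

/-- Children in the block of a block cell do not depend on the level. -/
theorem child_shift {k d i j : ℕ} {U : Tile} (hU : NoVal U) (h : InBlk (lvl k) i j) :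
    InBlk (lvl (k + d)) (i + d) (j + d) ∧
      child forb (lvl (k + d)) U (i + d) (j + d) = child forb (lvl k) U i j := by
  induction d with
  | zero => exact ⟨h, rfl⟩
  | succ d ih =>
    have := K_tab
    have := lvl_large (k + d)
    have e : lvl (k + (d + 1)) = lvl (k + d) + 1 := lvl_succ (k + d)
    obtain ⟨⟨h1, h2, h3, h4⟩, ih2⟩ := ih
    rw [e]
    refine ⟨⟨by omega, by omega, by omega, by omega⟩, ?_⟩
    rw [← ih2]
    exact child_lift (del_of_noVal hU 16) (hU.vals 16) (by omega) (by omega) (by omega)
      ⟨h1, h2, h3, h4⟩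

theorem noVal_of_tagCell {k : ℕ} {T : Tile} {V : Tile} {i j : ℕ} (hi : i < 2 * lvl k)
    (hj : j < 2 * lvl k) (e : T = child forb (lvl k) V i j) (ht : T.tagCell ≠ none) :
    InBlk (lvl k) i j ∧ NoVal T := by
  subst e
  have hK := K_tab
  have hl := lvl_large k
  have hb : InBlk (lvl k) i j := by
    by_contra hb
    exact ht ((tagCell_child forb V (by omega) hi hj).2 hb)
  exact ⟨hb, val_blk forb V hl hb⟩

/-- The signals of a generated tile occur one level higher. -/
theorem exists_signal_up {k : ℕ} {W : Tile} (hW : Generated forb (k + 1) W) (q : Sg) :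
    ∃ P, Generated forb (k + 2) P ∧ sig forb (lvl (k + 1)) P q = sig forb (lvl k) W q := by
  obtain ⟨X, i, j, hX, hi, hj, rfl⟩ := gen_parent hW
  obtain ⟨Y, a, b, hY, ha, hb, rfl⟩ := gen_parent hX
  obtain ⟨Y', a', b', i', j', c, hY', ha', hb', hi', hj', -, hc1, hc2, hv, hd⟩ :=
    exists_up (s := k + 1) (hasGeom_of_generated hY) ha hb hi hj
  obtain ⟨P, hP, e⟩ := exists_signal (k := k + 1) (hasGeom_child forb _ Y' ha' hb') hi' hj' q
  refine ⟨P, hP, e.trans ?_⟩
  have h := sig_del (M := lvl (k + 1)) forb hv (by omega) (by omega) q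
  rw [hd, show lvl (k + 1) - 1 = lvl k by rw [lvl_succ]; rfl] at h
  exact h.symm

/-- A generated tile outside the block has a generated copy one level higher. -/
theorem exists_up_outside {k : ℕ} {U : Tile} (hU : Generated forb (k + 1) U)
    (ht : U.tagCell = none) :
    ∃ U' c, Generated forb (k + 2) U' ∧ 16 ≤ c ∧ c + K + 15 ≤ lvl k + 1 ∧ Vals c U' ∧
      U'.del c = U := by
  obtain ⟨V, i, j, hV, hi, hj, rfl⟩ := gen_parent hU
  obtain ⟨W, a, b, hW, ha, hb, rfl⟩ := gen_parent hV
  obtain ⟨W', a', b', i', j', c, hW', ha', hb', hi', hj', hsig, hc1, hc2, hv, hd⟩ :=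
    exists_up (s := k + 1) (hasGeom_of_generated hW) ha hb hi hj
  have e1 : lvl (k + 1) = lvl k + 1 := lvl_succ k
  refine ⟨_, c, ?_, hc1, by omega, hv, hd⟩
  refine generated_outside (k := k + 2) hW' ha' hb' (fun q => ?_) hi' hj' ?_
  · obtain ⟨P, hP, e⟩ := exists_signal_up hW q
    exact ⟨P, hP, e.trans (congrFun hsig q).symm⟩
  · intro hblk
    have hK := K_tab
    have hl := lvl_large (k + 1 + 1)
    have e := congrArg Tile.tagCell hd
    rw [Tile.tagCell_del, ht] at e
    rw [(tagCell_child forb _ (by omega) hi' hj').1 hblk] at e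
    cases e

/-- Generated block cells are generated one level higher. -/
theorem generated_succ {k : ℕ} {T : Tile} (h : Generated forb k T) :
    T.tagCell ≠ none → Generated forb (k + 1) T := by
  induction h with
  | base s =>
    intro ht
    exfalso
    apply ht
    have := K_tab
    have hl := lvl_large s
    rw [← child_corner forb s (seed (lvl (s + 1)))]
    exact (tagCell_child forb _ (by omega) (by omega) (by omega)).2 (by unfold InBlk; omega)
  | step s U i j hU hi hj ih =>
    intro ht
    obtain ⟨hb, -⟩ := noVal_of_tagCell hi hj rfl ht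
    have hK := K_tab
    have hl := lvl_large s
    have e1 : lvl (s + 1) = lvl s + 1 := lvl_succ s
    obtain ⟨U', c, hU', hc1, hc2, hv, hd⟩ : ∃ U' c, Generated forb (s + 2) U' ∧ 16 ≤ c ∧
        c + K + 15 ≤ lvl s + 1 ∧ Vals c U' ∧ U'.del c = U := by
      by_cases hUt : U.tagCell = none
      · exact exists_up_outside hU hUt
      · obtain ⟨V, a, b, -, ha, hb', e⟩ := gen_parent hU
        have hn := (noVal_of_tagCell ha hb' e hUt).2
        exact ⟨U, 16, ih hUt, le_rfl, by omega, hn.vals 16, del_of_noVal hn 16⟩
    rw [← child_lift hd hv (by omega) (by omega) hl hb, ← e1]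
    obtain ⟨h1, h2, h3, h4⟩ := hb
    exact Generated.step (s + 1) U' (i + 1) (j + 1) hU' (by omega) (by omega)

/-- Generated block cells are generated on every higher level. -/
theorem generated_add {k : ℕ} {T : Tile} (h : Generated forb k T) (ht : T.tagCell ≠ none) :
    ∀ d, Generated forb (k + d) T
  | 0 => h
  | d + 1 => generated_succ (generated_add h ht d) ht

end Vale.Agent.P196.Full.Tiles.Minimal
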