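import Vale.Agent.P196.Full.Tiles.Minimal.Witness

/-!
# P196: children outside the central block are generated
-/

namespace Vale.Agent.P196.Full.Tiles.Minimal

attribute [local irreducible] K M0 lvl geoH geoV sig fillH fillV

set_option linter.unusedSimpArgs false

/-- The colours of a cell of the central block. -/
theorem gs_blk (f : (Sg → Bool) → Bool) (T : Tile) {M i j : ℕ} (hM : 4 * K ≤ M)
    (h : InBlk M i j) :
    (child f M T i j).gs 0 = .tag (i + K - M) (j + K - M) ∧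
    (child f M T i j).gs 1 = .tag (i + K - M + 1) (j + K - M) ∧
    (child f M T i j).gs 2 = .tag (i + K - M) (j + K - M) ∧
    (child f M T i j).gs 3 = .tag (i + K - M) (j + K - M + 1) := by
  have := K_tab
  obtain ⟨h1, h2, h3, h4⟩ := h
  refine ⟨?_, ?_, ?_, ?_⟩
  · show geoH M i j = _
    unfold geoH; rw [if_neg (by omega), if_pos (by omega)]
  · show geoH M (i + 1) j = _
    unfold geoH; rw [if_neg (by omega), if_pos (by omega)]
    simp only [GCol.tag.injEq, and_true]; omega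
  · show geoV M i j = _
    unfold geoV geoH; rw [if_neg (by omega), if_pos (by omega)]
    rfl
  · show geoV M i (j + 1) = _
    unfold geoV geoH; rw [if_neg (by omega), if_pos (by omega)]
    simp only [GCol.tr, GCol.tag.injEq, true_and]; omega

theorem val_blk (f : (Sg → Bool) → Bool) (T : Tile) {M i j : ℕ} (hM : 4 * K ≤ M)
    (h : InBlk M i j) (s : Fin 4) : ((child f M T i j).gs s).val = none := by
  obtain ⟨g0, g1, g2, g3⟩ := gs_blk f T hM h
  rcases (by decide : ∀ s : Fin 4, s = 0 ∨ s = 1 ∨ s = 2 ∨ s = 3) s with rfl | rfl | rfl | rfl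
  · rw [g0]; rfl
  · rw [g1]; rfl
  · rw [g2]; rfl
  · rw [g3]; rfl

theorem idx_rng {x : ℕ} (h : (∃ t k, x = cPos t k) ∨ ∃ q h k, x = sCol q h k) :
    4 ≤ x ∧ x < mBase := by
  have := mBase_rng
  rcases h with ⟨t, k, rfl⟩ | ⟨q, h, k, rfl⟩
  · have := cPos_rng t k; omega
  · have := sCol_rng q h k; omega

/-- A minterm cell of the block can be replaced by one in a column of a generated pattern. -/
theorem exists_col {k r₁ r₂ y x : ℕ} (U : Tile)
    (hE : (lvl (k + 1) ≤ r₁ + K ∧ r₁ < lvl (k + 1) + K) ∧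
      (lvl (k + 1) < y + K ∧ y < lvl (k + 1) + K) ∧ usable (r₁ + K - lvl (k + 1)) = true)
    (hy : y = r₂ ∨ y = r₂ + 1) (hx : 4 ≤ x ∧ x < mBase) :
    ∃ r₁', r₁' < 2 * lvl (k + 1) ∧
      (∀ s, ((child forb (lvl (k + 1)) (seed (lvl (k + 2))) r₁' r₂).gs s).val =
        ((child forb (lvl (k + 1)) U r₁ r₂).gs s).val) ∧
      (∀ s, (((child forb (lvl (k + 1)) (seed (lvl (k + 2))) r₁' r₂).gs s).tagA = some x ↔
          ((child forb (lvl (k + 1)) U r₁ r₂).gs s).tagA = some x) ∧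
        (((child forb (lvl (k + 1)) (seed (lvl (k + 2))) r₁' r₂).gs s).tagB = some x ↔
          ((child forb (lvl (k + 1)) U r₁ r₂).gs s).tagB = some x)) ∧
      fillV forb (lvl (k + 1)) (seed (lvl (k + 2))) r₁' y .Qm =
        fillV forb (lvl (k + 1)) U r₁ y .Qm := by
  have hmb := mBase_rng
  have hK := K_tab
  have hMK : 4 * K ≤ lvl (k + 1) := lvl_large _
  obtain ⟨G, hG⟩ : ∃ G, seed (lvl (k + 2)) = G := ⟨_, rfl⟩
  rw [hG]
  obtain ⟨M, hM⟩ : ∃ M, lvl (k + 1) = M := ⟨_, rfl⟩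
  rw [hM] at hE hMK ⊢
  obtain ⟨⟨e1, e2⟩, ⟨e3, e4⟩, e5⟩ := hE
  have hu : mBase ≤ r₁ + K - M ∧ r₁ + K - M < mBase + 2 ^ nS := by simpa [usable] using e5
  obtain ⟨a, ha, haK, hbit⟩ : ∃ a, (a = 2 ∨ mBase ≤ a) ∧ a < 2 * K ∧
      fillV forb M G (M - K + a) y .Qm = fillV forb M U r₁ y .Qm := by
    cases hv : fillV forb M U r₁ y .Qm with
    | false =>
      refine ⟨2, Or.inl rfl, by omega, ?_⟩
      rw [Bool.eq_false_iff]
      intro h
      have := ((fillV_Qm M G _ _).1 h).2.2.1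
      rw [show M - K + 2 + K - M = 2 by omega] at this
      simp only [usable, decide_eq_true_eq] at this
      omega
    | true =>
      obtain ⟨a, hua, hp⟩ := exists_pat (sig forb M G)
      have hua' : mBase ≤ a ∧ a < mBase + 2 ^ nS := by simpa [usable] using hua
      refine ⟨a, Or.inr hua'.1, by omega, ?_⟩
      rw [fillV_Qm, show M - K + a + K - M = a by omega]
      exact ⟨⟨by omega, by omega⟩, ⟨e3, e4⟩, hua, fun q _ => (hp q).symm⟩
  have hblkQ : InBlk M r₁ r₂ := ⟨e1, e2, by omega, by omega⟩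
  have hblkP : InBlk M (M - K + a) r₂ := ⟨by omega, by omega, by omega, by omega⟩
  refine ⟨M - K + a, by omega, fun s => ?_, fun s => ?_, hbit⟩
  · rw [val_blk forb G hMK hblkP, val_blk forb U hMK hblkQ]
  · obtain ⟨p0, p1, p2, p3⟩ := gs_blk forb G hMK hblkP
    obtain ⟨u0, u1, u2, u3⟩ := gs_blk forb U hMK hblkQ
    rw [show M - K + a + K - M = a by omega] at p0 p1 p2 p3
    have key : ∀ (g g' : GCol) (a a' b : ℕ), g = .tag a b → g' = .tag a' b → a ≠ x → a' ≠ x →
        (g.tagA = some x ↔ g'.tagA = some x) ∧ (g.tagB = some x ↔ g'.tagB = some x) := by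
      rintro _ _ a a' b rfl rfl h1 h2
      simp [GCol.tagA, GCol.tagB, h1, h2]
    rcases (by decide : ∀ s : Fin 4, s = 0 ∨ s = 1 ∨ s = 2 ∨ s = 3) s with rfl | rfl | rfl | rfl
    · exact key _ _ _ _ _ p0 u0 (by omega) (by omega)
    · exact key _ _ _ _ _ p1 u1 (by omega) (by omega)
    · exact key _ _ _ _ _ p2 u2 (by omega) (by omega)
    · exact key _ _ _ _ _ p3 u3 (by omega) (by omega)

/-- The parent of an outside child can be replaced by a generated one. -/
theorem exists_parent {k i j r₁ r₂ : ℕ} {U : Tile} (hU : HasGeom (k + 2) U)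
    (hr₁ : r₁ < 2 * lvl (k + 1)) (hr₂ : r₂ < 2 * lvl (k + 1))
    (hex : ∀ q, ∃ P, Generated forb (k + 2) P ∧
      sig forb (lvl (k + 1)) P q = sig forb (lvl (k + 1)) U q)
    (hi : i < 2 * lvl k) (hj : j < 2 * lvl k) (hout : ¬InBlk (lvl k) i j) :
    ∃ P, Generated forb (k + 1) P ∧ child forb (lvl k) P i j =
      child forb (lvl k) (child forb (lvl (k + 1)) U r₁ r₂) i j := by
  obtain ⟨q₀, hq₀, hdep⟩ := outside_dep forb (lvl_large k) hi hj hout
  obtain ⟨U', hU', hgU⟩ := exists_gen_geom hU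
  obtain ⟨Q, hQ⟩ : ∃ Q, child forb (lvl (k + 1)) U r₁ r₂ = Q := ⟨_, rfl⟩
  rw [hQ]
  -- parents of the same geometry
  have fin : ∀ P', Generated forb (k + 2) P' →
      sig forb (lvl k) (child forb (lvl (k + 1)) P' r₁ r₂) q₀ = sig forb (lvl k) Q q₀ →
      ∃ P, Generated forb (k + 1) P ∧ child forb (lvl k) P i j = child forb (lvl k) Q i j := by
    intro P' hP' hs
    have hg : SameG (child forb (lvl (k + 1)) P' r₁ r₂) Q := hQ ▸ SameG.child _ _ _ _ _ _
    refine ⟨_, Generated.step (k + 1) P' r₁ r₂ hP' hr₁ hr₂, hdep _ _ (fun s => by rw [hg s]) ?_ hs⟩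
    intro x _ s
    rw [hg s]
    exact ⟨Iff.rfl, Iff.rfl⟩
  have hg0 : SameG (child forb (lvl (k + 1)) U' r₁ r₂) Q := hQ ▸ SameG.child _ _ _ _ _ _
  by_cases hside : ∀ s t r, q₀ ≠ Sg.side s t r
  · exact fin U' hU' (hg0.sig_eq forb _ hside)
  simp only [ne_eq, not_forall, not_not] at hside
  obtain ⟨s, t, r, rfl⟩ := hside
  rcases t with c | h
  · refine fin U' hU' ?_
    rw [sig_side, sig_side]
    obtain ⟨g1, g2, g3, g4⟩ := hg0.lrdu
    unfold Tile.sideBit
    simp [hBit, vBit, g1, g2, g3, g4]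
  by_cases ho : Oriented s h
  swap
  · refine fin U' hU' ?_
    rw [sig_side, sig_side, ← hQ, sideBit_child, sideBit_child]
    rcases h with h | h <;> fin_cases s <;> simp [Oriented] at ho ⊢
  rcases h with h | h
  · by_cases hh : SigH h
    · have ho' : s = 0 ∨ s = 1 := by fin_cases s <;> simp [Oriented] at ho ⊢
      obtain ⟨x, hx⟩ : ∃ x, ∀ T : Tile, (child forb (lvl (k + 1)) T r₁ r₂).sideBit s (.inr (.inl h)) =
          fillH forb (lvl (k + 1)) T x r₂ h := by
        rcases ho' with rfl | rfl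
        · exact ⟨r₁, fun T => by rw [sideBit_child]; simp⟩
        · exact ⟨r₁ + 1, fun T => by rw [sideBit_child]; simp⟩
      obtain ⟨q₁, hq₁⟩ := fillH_sig forb (lvl (k + 1)) x r₂ hh
      obtain ⟨P', hP', hs⟩ := hex q₁
      refine fin P' hP' ?_
      rw [sig_side, sig_side, ← hQ, hx, hx]
      exact hq₁ _ _ hs
    · refine fin U' hU' ?_
      rw [sig_side, sig_side, ← hQ, sideBit_child, sideBit_child]
      simp only [fillH_geo forb _ _ _ hh hgU]
  have ho' : s = 2 ∨ s = 3 := by fin_cases s <;> simp [Oriented] at ho ⊢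
  obtain ⟨y, hy, hy'⟩ : ∃ y, (∀ (T : Tile) (a : ℕ),
      (child forb (lvl (k + 1)) T a r₂).sideBit s (.inr (.inr h)) =
        fillV forb (lvl (k + 1)) T a y h) ∧ (y = r₂ ∨ y = r₂ + 1) := by
    rcases ho' with rfl | rfl
    · exact ⟨r₂, fun T a => by rw [sideBit_child]; simp, Or.inl rfl⟩
    · exact ⟨r₂ + 1, fun T a => by rw [sideBit_child]; simp, Or.inr rfl⟩
  by_cases hh : SigV h
  · obtain ⟨q₁, hq₁⟩ := fillV_sig forb (lvl (k + 1)) r₁ y hh
    obtain ⟨P', hP', hs⟩ := hex q₁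
    refine fin P' hP' ?_
    rw [sig_side, sig_side, ← hQ, hy, hy]
    exact hq₁ _ _ hs
  by_cases hqm : h = .Qm
  swap
  · refine fin U' hU' ?_
    rw [sig_side, sig_side, ← hQ, hy, hy]
    simp only [fillV_geo forb _ _ _ hh hqm hgU]
  subst hqm
  by_cases hE : (lvl (k + 1) ≤ r₁ + K ∧ r₁ < lvl (k + 1) + K) ∧
      (lvl (k + 1) < y + K ∧ y < lvl (k + 1) + K) ∧ usable (r₁ + K - lvl (k + 1)) = true
  swap
  · refine fin U' hU' ?_
    rw [sig_side, sig_side, ← hQ, hy, hy, Bool.eq_iff_iff, fillV_Qm, fillV_Qm]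
    exact ⟨fun h => absurd ⟨h.1, h.2.1, h.2.2.1⟩ hE, fun h => absurd ⟨h.1, h.2.1, h.2.2.1⟩ hE⟩
  -- the parent is a cell of the block in a minterm column
  obtain ⟨-, -, hnrow, hidx⟩ :=
    hq₀ s (.inr (.inr .Qm)) r rfl (by rcases ho' with rfl | rfl <;> decide)
  have hx : 4 ≤ i + K - lvl k ∧ i + K - lvl k < mBase := idx_rng hidx
  obtain ⟨r₁', hr₁', hval, htag, hbit⟩ := exists_col U hE hy' hx
  refine ⟨_, Generated.step (k + 1) _ r₁' r₂ (Generated.base (k + 2)) hr₁' hr₂,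
    hdep _ _ ?_ ?_ ?_⟩
  · intro s'; rw [← hQ]; exact hval s'
  · intro x hx' s'
    rcases hx' with ⟨g1, g2, -⟩ | ⟨-, -, rfl⟩
    · exact absurd ⟨g1, g2⟩ hnrow
    rw [← hQ]; exact htag s'
  · rw [sig_side, sig_side, ← hQ, hy, hy]
    exact hbit

/-- Outside children of children are generated. -/
theorem generated_outside {k i j r₁ r₂ : ℕ} {U : Tile} (hU : HasGeom (k + 2) U)
    (hr₁ : r₁ < 2 * lvl (k + 1)) (hr₂ : r₂ < 2 * lvl (k + 1))
    (hex : ∀ q, ∃ P, Generated forb (k + 2) P ∧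
      sig forb (lvl (k + 1)) P q = sig forb (lvl (k + 1)) U q)
    (hi : i < 2 * lvl k) (hj : j < 2 * lvl k) (hout : ¬InBlk (lvl k) i j) :
    Generated forb k (child forb (lvl k) (child forb (lvl (k + 1)) U r₁ r₂) i j) := by
  obtain ⟨P, hP, e⟩ := exists_parent hU hr₁ hr₂ hex hi hj hout
  exact e ▸ Generated.step k P i j hP hi hj

end Vale.Agent.P196.Full.Tiles.Minimal
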