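import Vale.Agent.P196.Full.Tiles.Allowed

/-!
# P196: inserting a ring

The inverse of the deletion of a ring: a chain tile, parent, grandparent of one level has a copy
one level higher from which it is obtained by deleting rings.
-/

namespace Vale.Agent.P196.Full.Tiles.Minimal

attribute [local irreducible] K M0 lvl geoH geoV fillH fillV sig

/-- The coordinate after inserting a ring at `c` into a block of half-width `M`. -/
def ex (c M i : ℕ) : ℕ := if i < c then i else if i + c < 2 * M then i + 1 else i + 2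

theorem ex_spec {c M i : ℕ} (h : Away c i) (h' : Away c (2 * M - 1 - i)) (hi : i < 2 * M)
    (hc : c + 2 ≤ M + 1) :
    shr c (M + 1) (ex c M i) = i ∧ ex c M i < 2 * (M + 1) ∧ Away c (ex c M i) ∧
      Away c (2 * (M + 1) - 1 - ex c M i) := by
  unfold Away at *
  unfold ex shr
  refine ⟨?_, ?_, ?_, ?_⟩ <;> split_ifs <;> omega

theorem shr_ex_succ {c M i : ℕ} (h : Away c i) (h' : Away c (2 * M - 1 - i)) (hi : i < 2 * M)
    (hc : c + 2 ≤ M + 1) : shr c (M + 1) (ex c M i + 1) = i + 1 := by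
  obtain ⟨e, hlt, ha, hb⟩ := ex_spec h h' hi hc
  obtain ⟨h1, -, h2, -⟩ := ha.near hb hlt
  rw [shr_succ h1 h2 hlt, e]

/-- Lifting the geometry of a tile. -/
theorem exists_up_geom {s c : ℕ} {T : Tile} {i j : ℕ} (hi : i < 2 * lvl s) (hj : j < 2 * lvl s)
    (hl : T.l.g = geoH (lvl s) i j) (hr : T.r.g = geoH (lvl s) (i + 1) j)
    (hd : T.d.g = geoV (lvl s) i j) (hu : T.u.g = geoV (lvl s) i (j + 1))
    (hc : 6 ≤ c) (hcM : c + K + 2 ≤ lvl s + 1)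
    (a1 : Away c i) (a2 : Away c (2 * lvl s - 1 - i)) (a3 : Away c j)
    (a4 : Away c (2 * lvl s - 1 - j)) :
    ∃ T', HasGeom (s + 1) T' ∧ T'.del c = T ∧ Vals c T' := by
  have hls := lvl_succ s
  obtain ⟨M, hM⟩ : ∃ M, lvl s = M := ⟨_, rfl⟩
  rw [hM] at hi hj hl hr hd hu a2 a4 hls hcM
  obtain ⟨ei, li, bi, bi'⟩ := ex_spec a1 a2 hi (by omega)
  obtain ⟨ej, lj, bj, bj'⟩ := ex_spec a3 a4 hj (by omega)
  obtain ⟨x, hx⟩ : ∃ x, ex c M i = x := ⟨_, rfl⟩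
  obtain ⟨y, hy⟩ : ∃ y, ex c M j = y := ⟨_, rfl⟩
  rw [hx] at ei li bi bi'
  rw [hy] at ej lj bj bj'
  obtain ⟨i1, -, i3, -⟩ := bi.near bi' li
  obtain ⟨j1, -, j3, -⟩ := bj.near bj' lj
  obtain ⟨g1, g2, g3, g4⟩ := cell_del (c := c) (M := M + 1) hc (by omega) li lj bi bi' bj bj'
  simp only [Nat.add_sub_cancel, ei, ej] at g1 g2 g3 g4
  refine ⟨⟨⟨geoH (M + 1) x y, T.l.bit⟩, ⟨geoH (M + 1) (x + 1) y, T.r.bit⟩,
    ⟨geoV (M + 1) x y, T.d.bit⟩, ⟨geoV (M + 1) x (y + 1), T.u.bit⟩⟩,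
    ⟨x, y, by omega, by omega, by rw [hls], by rw [hls], by rw [hls], by rw [hls]⟩, ?_,
    cell_vals rfl rfl rfl rfl bi bi' bj bj'⟩
  rcases T with ⟨⟨gl, bl⟩, ⟨gr, br⟩, ⟨gd, bd⟩, ⟨gu, bu⟩⟩
  simp only at hl hr hd hu
  simp only [Tile.del, hl, hr, hd, hu, ← g1, ← g2, ← g3, ← g4]

/-- Lifting one step of the descent. -/
theorem exists_up_child (f : (Sg → Bool) → Bool) {s c A : ℕ} {W W' : Tile} {i j : ℕ}
    (hW : W'.del c = W) (hv : Vals c W') (hA : A + K + c = lvl s + 1) (hA2 : 6 ≤ A) (hc : 6 ≤ c)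
    (hi : i < 2 * lvl s) (hj : j < 2 * lvl s)
    (a1 : Away A i) (a2 : Away A (2 * lvl s - 1 - i)) (a3 : Away A j)
    (a4 : Away A (2 * lvl s - 1 - j)) :
    ∃ i' j', i' < 2 * lvl (s + 1) ∧ j' < 2 * lvl (s + 1) ∧
      (child f (lvl (s + 1)) W' i' j').del A = child f (lvl s) W i j ∧
      Vals A (child f (lvl (s + 1)) W' i' j') := by
  rw [lvl_succ s]
  obtain ⟨M, hM⟩ : ∃ M, lvl s = M := ⟨_, rfl⟩
  rw [hM] at hi hj a2 a4 hA ⊢
  obtain ⟨ei, li, bi, bi'⟩ := ex_spec a1 a2 hi (by omega)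
  obtain ⟨ej, lj, bj, bj'⟩ := ex_spec a3 a4 hj (by omega)
  refine ⟨_, _, li, lj, ?_, cell_vals (M := M + 1) (i := ex A M i) (j := ex A M j)
    (by unfold child; rfl) (by unfold child; rfl) (by unfold child; rfl) (by unfold child; rfl)
    bi bi' bj bj'⟩
  rw [← child_del f hA hA2 hc hv li lj bi bi' bj bj']
  simp only [Nat.add_sub_cancel, ei, ej, hW]

/-- A place for the new ring away from twelve coordinates. -/
theorem exists_gap (u : Fin 12 → ℕ) : ∃ c, 16 ≤ c ∧ c ≤ 208 ∧ ∀ k, Away c (u k) := by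
  by_contra h
  unfold Away at h
  push Not at h
  have : ∀ d : Fin 13, ∃ k, 16 + 16 * (d : ℕ) < u k + 6 ∧ u k < 16 + 16 * (d : ℕ) + 6 := fun d =>
    h _ (by omega) (by omega)
  choose g hg using this
  obtain ⟨a, b, hab, he⟩ := Fintype.exists_ne_map_eq_of_card_lt g (by simp)
  have h1 := hg a
  have h2 := hg b
  rw [he] at h1
  exact hab (Fin.ext (by omega))

theorem K_ge : 256 ≤ K := by
  unfold K
  have : 0 < 2 ^ nS := Nat.two_pow_pos _
  have h : 17 ≤ nS := by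
    unfold nS
    have := Fintype.card_le_of_injective Sg.scan (fun a b h => by simpa using h)
    simpa using this
  have h2 : 17 < 2 ^ nS := lt_of_le_of_lt h Nat.lt_two_pow_self
  omega

/-- A tile with a parent and a grandparent has a copy one level higher with the same property. -/
theorem exists_up {s : ℕ} {W : Tile} {i₁ j₁ i₀ j₀ : ℕ} (hW : HasGeom (s + 2) W)
    (hi₁ : i₁ < 2 * lvl (s + 1)) (hj₁ : j₁ < 2 * lvl (s + 1))
    (hi₀ : i₀ < 2 * lvl s) (hj₀ : j₀ < 2 * lvl s) :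
    ∃ (W' : Tile) (i₁' j₁' i₀' j₀' : ℕ) (c₀ : ℕ), HasGeom (s + 3) W' ∧
      i₁' < 2 * lvl (s + 2) ∧ j₁' < 2 * lvl (s + 2) ∧
      i₀' < 2 * lvl (s + 1) ∧ j₀' < 2 * lvl (s + 1) ∧
      sig forb (lvl (s + 2)) W' = sig forb (lvl (s + 1)) W ∧
      16 ≤ c₀ ∧ c₀ + K + 16 ≤ lvl s + 1 ∧
      Vals c₀ (child forb (lvl (s + 1)) (child forb (lvl (s + 2)) W' i₁' j₁') i₀' j₀') ∧
      (child forb (lvl (s + 1)) (child forb (lvl (s + 2)) W' i₁' j₁') i₀' j₀').del c₀ =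
        child forb (lvl s) (child forb (lvl (s + 1)) W i₁ j₁) i₀ j₀ := by
  obtain ⟨I, J, hI, hJ, hl, hr, hd, hu⟩ := hW
  have hK := K_ge
  have hL := lvl_large s
  have e1 := lvl_succ s
  have e2 : lvl (s + 2) = lvl (s + 1) + 1 := lvl_succ (s + 1)
  obtain ⟨c, c1, c2, hc⟩ := exists_gap ![i₁, j₁, 2 * lvl (s + 1) - 1 - i₁, 2 * lvl (s + 1) - 1 - j₁,
    lvl (s + 2) - K - I, lvl (s + 2) - K - J, lvl (s + 2) - K - (2 * lvl (s + 2) - 1 - I),
    lvl (s + 2) - K - (2 * lvl (s + 2) - 1 - J),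
    lvl (s + 1) - K - i₀, lvl (s + 1) - K - j₀, lvl (s + 1) - K - (2 * lvl s - 1 - i₀),
    lvl (s + 1) - K - (2 * lvl s - 1 - j₀)]
  obtain ⟨cW, hcW⟩ : ∃ cW, cW + K + c = lvl (s + 2) := ⟨lvl (s + 2) - K - c, by omega⟩
  obtain ⟨c₀, hc₀⟩ : ∃ c₀, c₀ + K + c = lvl (s + 1) := ⟨lvl (s + 1) - K - c, by omega⟩
  obtain ⟨W', gW', dW', vW'⟩ := exists_up_geom hI hJ hl hr hd hu (c := cW) (by omega) (by omega)
    (Away.refl (hc 4) hcW (by omega)) (Away.refl (hc 6) hcW (by omega))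
    (Away.refl (hc 5) hcW (by omega)) (Away.refl (hc 7) hcW (by omega))
  obtain ⟨a, b, ha, hb, dV, vV⟩ := exists_up_child forb (s := s + 1) (A := c) dW' vW'
    (show c + K + cW = lvl (s + 1) + 1 by omega) (by omega) (by omega) hi₁ hj₁ (hc 0) (hc 2) (hc 1)
    (hc 3)
  obtain ⟨x, y, hx, hy, dU, vU⟩ := exists_up_child forb (s := s) (A := c₀) dV vV
    (show c₀ + K + c = lvl s + 1 by omega) (by omega) (by omega) hi₀ hj₀
    (Away.refl (hc 8) hc₀ (by omega)) (Away.refl (hc 10) hc₀ (by omega))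
    (Away.refl (hc 9) hc₀ (by omega)) (Away.refl (hc 11) hc₀ (by omega))
  refine ⟨W', a, b, x, y, c₀, gW', ha, hb, hx, hy, ?_, by omega, by omega, vU, dU⟩
  rw [show lvl (s + 1) = lvl (s + 2) - 1 by omega, ← dW']
  exact (funext (sig_del forb vW' (by omega) (by omega))).symm

end Vale.Agent.P196.Full.Tiles.Minimal
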