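import Vale.Agent.P196.Full.Tiles.Minimal.Depend

/-!
# P196: generated tiles with a prescribed bit

Every bit that can be true is true on a generated tile, and a child outside the central block of a
child of a tile is generated as soon as the signals of the grandparent occur on generated tiles.
-/

namespace Vale.Agent.P196.Full.Tiles.Minimal

attribute [local irreducible] K M0 lvl geoH geoV sig fillH fillV

set_option linter.unusedSimpArgs false

theorem gen_parent {k : ℕ} {T : Tile} (h : Generated forb k T) :
    ∃ V i j, Generated forb (k + 1) V ∧ i < 2 * lvl k ∧ j < 2 * lvl k ∧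
      T = child forb (lvl k) V i j := by
  cases h with
  | base =>
    have := Tiles.K_ge
    have := lvl_large k
    exact ⟨_, 5, 5, Generated.base (k + 1), by omega, by omega, (child_corner forb k _).symm⟩
  | step s T i j h hi hj => exact ⟨T, i, j, h, hi, hj, rfl⟩

theorem gs_child (f : (Sg → Bool) → Bool) (M : ℕ) (T : Tile) (i j : ℕ) (s : Fin 4) :
    (child f M T i j).gs s =
      ![geoH M i j, geoH M (i + 1) j, geoV M i j, geoV M i (j + 1)] s := by
  unfold Tile.gs child
  rfl

theorem SameG.child (f : (Sg → Bool) → Bool) (M : ℕ) (P Q : Tile) (i j : ℕ) :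
    SameG (Tiles.child f M P i j) (Tiles.child f M Q i j) := by
  intro s; rw [gs_child, gs_child]

theorem SameG.symm {P Q : Tile} (h : SameG P Q) : SameG Q P := fun s => (h s).symm

/-- Every geometry occurs on a generated tile. -/
theorem exists_gen_geom {k : ℕ} {V : Tile} (h : HasGeom k V) :
    ∃ V', Generated forb k V' ∧ SameG V' V := by
  obtain ⟨i, j, hi, hj, hl, hr, hd, hu⟩ := h
  refine ⟨_, Generated.step k _ i j (Generated.base (k + 1)) hi hj, fun s => ?_⟩
  rw [gs_child]
  unfold Tile.gs
  rw [hl, hr, hd, hu]

theorem seed_sideBit (L : ℕ) (s : Fin 4) (h : HL ⊕ VL) : (seed L).sideBit s (.inr h) = false := by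
  rcases h with h | h <;> unfold Tile.sideBit seed <;> fin_cases s <;> simp [hBit, vBit]

/-- A displayed bit which is true on every side of a seed. -/
def tSeed : DI := .inl 3

theorem seed_code (k : ℕ) (s : Fin 4) : (seed (lvl k)).sideBit s tSeed = true := by
  have := Tiles.K_ge
  have hl4 := lvl_large k
  obtain ⟨M, hM⟩ : ∃ M, lvl k = M := ⟨_, rfl⟩
  rw [hM] at hl4 ⊢
  have e1 : geoH M 5 5 = .side 2 false 5 := by
    unfold geoH
    rw [if_neg (by omega), if_neg (by omega), if_neg (by simp only [lt_min_iff]; omega),
      if_neg (by simp only [lt_min_iff]; omega), if_pos (by omega), decide_eq_false (by omega)]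
  have e2 : geoH M 6 5 = .side 0 false 5 := by
    unfold geoH
    rw [if_neg (by omega), if_neg (by omega), if_pos (by simp only [lt_min_iff]; omega),
      decide_eq_false (by omega)]
  have e3 : geoV M 5 5 = .side 0 false 5 := by unfold geoV; rw [e1]; rfl
  have e4 : geoV M 5 6 = .side 2 false 5 := by unfold geoV; rw [e2]; rfl
  unfold Tile.sideBit seed tSeed
  fin_cases s <;> simp [hBit, vBit, e1, e2, e3, e4, GCol.code] <;> decide

theorem sig_side (M : ℕ) (T : Tile) (s : Fin 4) (t : DI) (k : Fin 2) :
    sig forb M T (.side s t k) = T.sideBit s t := by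
  unfold sig; rfl

theorem shown_true (T : Tile) {s : Fin 4} {t : DI} (k : Fin 2) (h : T.sideBit s t = true) :
    shown T s (cPos t k) = true := by
  unfold shown
  exact decide_eq_true ⟨t, k, rfl, h⟩

/-- Whether a bit may be true on a side. -/
def Oriented (s : Fin 4) : HL ⊕ VL → Prop
  | .inl _ => (s : ℕ) < 2
  | .inr _ => 2 ≤ (s : ℕ)

theorem sideBit_child (M : ℕ) (T : Tile) (i j : ℕ) (s : Fin 4) (h : HL ⊕ VL) :
    (child forb M T i j).sideBit s (.inr h) = match h with
      | .inl h => if s = 0 then fillH forb M T i j h else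
          if s = 1 then fillH forb M T (i + 1) j h else false
      | .inr h => if s = 2 then fillV forb M T i j h else
          if s = 3 then fillV forb M T i (j + 1) h else false := by
  rcases h with h | h <;> unfold Tile.sideBit child <;> fin_cases s <;> simp [hBit, vBit]

/-- A pattern in a minterm column. -/
theorem exists_pat (π : Sg → Bool) : ∃ a, usable a = true ∧ ∀ q, patOf a q = π q := by
  refine ⟨mBase + Nat.ofBits fun i => π (sIdx.symm i), ?_, fun q => ?_⟩
  · have h := Nat.ofBits_lt_two_pow fun i => π (sIdx.symm i)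
    simp only [usable, decide_eq_true_eq]
    omega
  · unfold patOf
    rw [Nat.add_sub_cancel_left, Nat.testBit_ofBits_lt _ _ (sIdx q).isLt]
    simp

theorem fillV_Qm (M : ℕ) (T : Tile) (i j : ℕ) :
    fillV forb M T i j .Qm = true ↔ (M ≤ i + K ∧ i < M + K) ∧ (M < j + K ∧ j < M + K) ∧
      usable (i + K - M) = true ∧
        ∀ q, sRow q < j + K - M → sig forb M T q = patOf (i + K - M) q := by
  unfold fillV
  simp [Bool.and_eq_true, and_assoc]

/-- Every bit of a signal layer is true somewhere. -/
theorem exists_true (k : ℕ) (s : Fin 4) (h : HL ⊕ VL) (ho : Oriented s h)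
    (hh : match h with | .inl h => SigH h | .inr h => SigV h ∨ h = .Qm) :
    ∃ P, Generated forb k P ∧ P.sideBit s (.inr h) = true := by
  have := K_tab
  have hl4 := lvl_large k
  have hg := Generated.base (forb := forb) (k + 1)
  have hc := cPos_rng tSeed 0
  obtain ⟨M, hM⟩ : ∃ M, lvl k = M := ⟨_, rfl⟩
  obtain ⟨G, hG⟩ : ∃ G, seed (lvl (k + 1)) = G := ⟨_, rfl⟩
  rw [hG] at hg
  have hcode : ∀ s, G.sideBit s tSeed = true := fun s => hG ▸ seed_code (k + 1) s
  rw [hM] at hl4
  have mk : ∀ i j, i < 2 * M → j < 2 * M → (child forb M G i j).sideBit s (.inr h) = true →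
      ∃ P, Generated forb k P ∧ P.sideBit s (.inr h) = true := by
    intro i j hi hj e
    refine ⟨_, Generated.step k G i j hg (by omega) (by omega), ?_⟩
    rw [hM]; exact e
  rcases h with h | h
  · rcases hh with rfl | rfl
    · refine mk 1 (M - K + cPos tSeed 0) (by omega) (by omega) ?_
      have hb : M - K + cPos tSeed 0 + K - M = cPos tSeed 0 := by omega
      have e : ∀ x, x = 1 ∨ x = 1 + 1 → fillH forb M G x (M - K + cPos tSeed 0) .C = true := by
        intro x hx
        unfold fillH
        simp [hb, show M ≤ M - K + cPos tSeed 0 + K by omega,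
          show M - K + cPos tSeed 0 < M + K by omega, show x + 1 ≤ M + K by omega,
          shown_true G 0 (hcode 0)]
      rw [sideBit_child]
      fin_cases s <;> simp [Oriented] at ho <;> simp [e]
    · refine mk M (M - K + cPos tSeed 0) (by omega) (by omega) ?_
      have hb : M - K + cPos tSeed 0 + K - M = cPos tSeed 0 := by omega
      have e : ∀ x, x = M ∨ x = M + 1 → fillH forb M G x (M - K + cPos tSeed 0) .P = true := by
        intro x hx
        unfold fillH
        simp [hb, show M ≤ M - K + cPos tSeed 0 + K by omega,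
          show M - K + cPos tSeed 0 < M + K by omega, show M < x + K by omega,
          show x < M + K by omega, shown_true G 1 (hcode 1)]
        exact Or.inl (shown_true G 0 (hcode 1))
      rw [sideBit_child]
      fin_cases s <;> simp [Oriented] at ho <;> simp [e]
  rcases hh with (rfl | rfl | rfl) | rfl
  · refine mk (M - K + cPos tSeed 0) 1 (by omega) (by omega) ?_
    have hb : M - K + cPos tSeed 0 + K - M = cPos tSeed 0 := by omega
    have e : ∀ x, x = 1 ∨ x = 1 + 1 → fillV forb M G (M - K + cPos tSeed 0) x .C = true := by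
      intro x hx
      unfold fillV
      simp [hb, show M ≤ M - K + cPos tSeed 0 + K by omega,
        show M - K + cPos tSeed 0 < M + K by omega, show x + 1 ≤ M + K by omega,
        shown_true G 0 (hcode 2)]
    rw [sideBit_child]
    fin_cases s <;> simp [Oriented] at ho <;> simp [e]
  · refine mk (M - K + cPos tSeed 0) M (by omega) (by omega) ?_
    have hb : M - K + cPos tSeed 0 + K - M = cPos tSeed 0 := by omega
    have e : ∀ x, x = M ∨ x = M + 1 → fillV forb M G (M - K + cPos tSeed 0) x .CT = true := by
      intro x hx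
      unfold fillV
      simp [hb, show M ≤ M - K + cPos tSeed 0 + K by omega,
        show M - K + cPos tSeed 0 < M + K by omega, show M < x + K by omega,
        show x < M + K by omega, shown_true G 0 (hcode 3)]
    rw [sideBit_child]
    fin_cases s <;> simp [Oriented] at ho <;> simp [e]
  · have hs := sCol_rng (.side 2 tSeed 0) 0 0
    have := mBase_rng
    obtain ⟨a, ha⟩ : ∃ a, sCol (.side 2 tSeed 0) 0 0 = a := ⟨_, rfl⟩
    rw [ha] at hs
    refine mk (M - K + a) M (by omega) (by omega) ?_
    have hb : M - K + a + K - M = a := by omega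
    have e : ∀ x, x = M ∨ x = M + 1 → fillV forb M G (M - K + a) x .Bus = true := by
      intro x hx
      unfold fillV
      simp [hb, show M ≤ M - K + a + K by omega, show M - K + a < M + K by omega,
        show M < x + K by omega, show x < 2 * M by omega]
      exact ⟨.side 2 tSeed 0, Or.inl (Or.inl ha.symm), by rw [sig_side]; exact hcode 2⟩
    rw [sideBit_child]
    fin_cases s <;> simp [Oriented] at ho <;> simp [e]
  · obtain ⟨a, hu, hp⟩ := exists_pat (sig forb M G)
    have hu' : mBase ≤ a ∧ a < mBase + 2 ^ nS := by simpa [usable] using hu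
    have := mBase_rng
    refine mk (M - K + a) M (by omega) (by omega) ?_
    have hb : M - K + a + K - M = a := by omega
    have e : ∀ x, x = M ∨ x = M + 1 → fillV forb M G (M - K + a) x .Qm = true := by
      intro x hx
      rw [fillV_Qm, hb]
      exact ⟨⟨by omega, by omega⟩, ⟨by omega, by omega⟩, hu, fun q _ => (hp q).symm⟩
    rw [sideBit_child]
    fin_cases s <;> simp [Oriented] at ho <;> simp [e]

/-- The signals of a child occur on generated tiles of the same level. -/
theorem exists_signal {k i j : ℕ} {V : Tile} (hV : HasGeom (k + 2) V) (hi : i < 2 * lvl (k + 1))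
    (hj : j < 2 * lvl (k + 1)) (q : Sg) :
    ∃ P, Generated forb (k + 1) P ∧
      sig forb (lvl k) P q = sig forb (lvl k) (child forb (lvl (k + 1)) V i j) q := by
  obtain ⟨V', hV', hg⟩ := exists_gen_geom hV
  have hP := Generated.step (k + 1) V' i j hV' hi hj
  have hgc := SameG.child forb (lvl (k + 1)) V' V i j
  rcases q with ⟨s, t, r⟩ | q | q | q
  rotate_left
  · exact ⟨_, hP, hgc.sig_eq forb _ (by intro _ _ _; simp)⟩
  · exact ⟨_, hP, hgc.sig_eq forb _ (by intro _ _ _; simp)⟩
  · exact ⟨_, hP, hgc.sig_eq forb _ (by intro _ _ _; simp)⟩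
  rcases t with c | h
  · refine ⟨_, hP, ?_⟩
    rw [sig_side, sig_side]
    obtain ⟨g1, g2, g3, g4⟩ := hgc.lrdu
    unfold Tile.sideBit
    simp [hBit, vBit, g1, g2, g3, g4]
  simp only [sig_side]
  cases hval : (child forb (lvl (k + 1)) V i j).sideBit s (.inr h) with
  | false => exact ⟨_, Generated.base (k + 1), seed_sideBit _ _ _⟩
  | true =>
    rw [sideBit_child] at hval
    rcases h with h | h
    · by_cases hh : SigH h
      · refine exists_true (k + 1) s (.inl h) ?_ hh
        fin_cases s <;> simp [Oriented] at hval ⊢
      · refine ⟨_, hP, ?_⟩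
        rw [sideBit_child]
        simpa only [fillH_geo forb _ _ _ hh hg] using hval
    · by_cases hh : SigV h ∨ h = .Qm
      · refine exists_true (k + 1) s (.inr h) ?_ hh
        fin_cases s <;> simp [Oriented] at hval ⊢
      · refine ⟨_, hP, ?_⟩
        rw [not_or] at hh
        rw [sideBit_child]
        simpa only [fillV_geo forb _ _ _ hh.1 hh.2 hg] using hval

end Vale.Agent.P196.Full.Tiles.Minimal
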